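import Vale.Agent.P284.H378.F.FS
import Vale.Agent.P284.H378.Fin
import Vale.Agent.P284.H378.T.NulF

/-!
# P284 (helper378), theorem T3: LF, [C], D_K for groups `K` whose finite dimensional real
representations have finite range, all proved
-/

open scoped Manifold ContDiff Topology InnerProductSpace ComplexConjugate
open Filter Set Metric

noncomputable section

set_option linter.unusedSectionVars false

namespace Vale.Agent.P284.H378.F

open Vale.Agent.P272.K Vale.Agent.P284.H894 Vale.Agent.P284.H894.G Vale.Agent.P284.H894.V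
  Vale.Agent.P284.H894.W Vale.Agent.P284.H573 Vale.Agent.P284.H213.Grp Vale.Agent.P284.H395
  Vale.Agent.P284.H619 Vale.Agent.P284.H625 Vale.Agent.P284.H378 Vale.Agent.P284.H573.DK
  Vale.Agent.P284.H10

/-- **(H3)**, without amenability. -/
theorem kerStmtF : KerStmtF := by
  intro n q X _ _ _ _ _ E Γ _ _ _ _ p hp w F c K hF hFe hK hG W _ _ _ π Θ M₀ hM₀ hΘ hne
  obtain ⟨B, hB⟩ := hF
  obtain ⟨T, hT1, hT2, hT3⟩ := hG
  have hTm : IsMeagre T := IsNowhereDense.isMeagre (by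
    rw [IsNowhereDense, hT1.closure_eq, hT2])
  have hd : Dense {t | t ∉ T ∧ ∃ u : E → W, VPot p F t W Θ u ∧
      ∀ k ∈ K, ∃ b : W, ∀ y, F y = t → u (k • y) = π k (u y) + b} := by
    have h1 : IsMeagre (T ∪ M₀) := hTm.union hM₀
    refine (dense_of_mem_residual h1).mono fun t ht => ?_
    have ht1 : t ∉ T := fun h => ht (Or.inl h)
    have ht2 : t ∉ M₀ := fun h => ht (Or.inr h)
    obtain ⟨u, h2, h3⟩ := hΘ.pot t ht2
    exact ⟨ht1, u, h2, h3.pot⟩
  obtain ⟨M, h1, -, h2⟩ := H885.Ker.ker_generic hp hB hFe hK hT1 hT2 hT3 π ⟨hΘ.hol, hΘ.change⟩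
    hΘ.equi hd hne
  exact ⟨M, h1, h2⟩

/-- **D_K**, without amenability. -/
theorem dk2StmtF : DK2StmtF := by
  intro n q X _ _ _ _ _ E Γ _ _ _ p hp w F c K ⟨B, hF⟩ hper hN hfr t hconn hreg W _ _ _ π Θ u
    hpot hequi 𝒢 hGo hGΓ hth r U hs
  obtain ⟨y₀, hy₀⟩ := hconn.nonempty
  have : Nonempty E := ⟨y₀⟩
  have hK : ∀ k ∈ K, ∀ y, F (k • y) = F y := fun k hk y => by
    rw [hper, hN.sub k hk, add_zero]
  have hle : q ≤ n := by
    have he : At (chartAt (Cm n) (p y₀)) (p y₀) := ⟨chart_mem_atlas _ _, mem_chart_source _ _⟩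
    obtain ⟨f, h1, h2⟩ := H221.holB_an hF y₀ he
    exact N_le_n (hreg y₀ hy₀ _ f he h2)
  obtain ⟨d, hd⟩ := Nat.exists_eq_add_of_le hle
  have hHE := H885.Ker.holE_of hF
  have hC : ∃ C : Set E, IsCompact C ∧ ∀ y, F y = t → ∃ k ∈ K, k • y ∈ C := by
    obtain ⟨C, h1, h2⟩ := H221.exists_fund_K hp (hHE.continuous hp.cov) hper
      hN.lat.disc K hN.fi ‖t‖
    exact ⟨C, h1, fun y hy => h2 y (by rw [hy])⟩
  exact H885.DK.dk_fib hp hF hK hconn hreg hd hfr hC hpot hequi.form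
    (fun y₀ hy₀ v hv => H378.T.nulF hp hHE hK hN.fg hfr
      (fun K' _ hfi => exists_compact_fib hp hHE hper hN hfi t) hconn hreg hpot hequi y₀ hy₀ v hv)
    hGo (fun k _ y hy => hGΓ k y hy) hth hs

/-- **LF**, without amenability. -/
theorem lfStmtF : LFStmtF := by
  have hNI := Vale.Agent.P284.H212.niStmt
  have hDK := dk2StmtF
  have hKer := kerStmtF
  have hGF := Vale.Agent.P284.H221.gfStmt
  intro n q r k s m X _ _ _ _ _ _ w hw E Γ _ _ _ _ p hp F c K hF hFe hK hfr hG hreg W H _ _ _ _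
    _ _ π Θ M₀ hM₀ hTh hne hcen v U N 𝒢 hL D hDN S hS
  obtain ⟨r₀, hr₀, hni⟩ := hNI n q r k s m X E Γ p hp w F c hF hFe W H π Θ v U N 𝒢 hL D hDN
  refine ⟨r₀, hr₀, fun K₀ hK₀ hNZ => ?_⟩
  by_contra hinf
  have hinf' := Set.Infinite.natEmbedding _ hinf
  have : FirstCountableTopology E := firstCountable_E (n := n) hp.cov
  choose g hg y hy b hb hSh using fun i => (hinf' i).2
  obtain ⟨y₀, hy₀, θ, hθ, hyθ⟩ := hK₀.tendsto_subseq hy
  obtain ⟨σ, hσ, hmain⟩ := hni (g ∘ θ) (y ∘ θ) y₀ (b ∘ θ) hyθ (hNZ _ hy₀) (fun i => hb _)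
    (fun i => hSh _)
  set h : ℕ → ℕ → Γ := fun i j => g (θ (σ i)) * (g (θ (σ j)))⁻¹ with hh
  obtain ⟨B, hB⟩ := hF
  -- the generic point
  obtain ⟨T, hT1, hT2, hT3⟩ := hG
  have hTm : IsMeagre T := IsNowhereDense.isMeagre (by
    rw [IsNowhereDense, hT1.closure_eq, hT2])
  obtain ⟨Mk, hMk, hker⟩ := hKer n q X E Γ p hp w F c K ⟨B, hB⟩ hFe hK ⟨T, hT1, hT2, hT3⟩
    W π Θ M₀ hM₀ hTh hne
  obtain ⟨Mg, hMg, hgf⟩ := hGF n q X E Γ p hp w F c ⟨B, hB⟩ hFe hK.lat.disc 𝒢 hL.good hL.inv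
  have hbad : IsMeagre (T ∪ M₀ ∪ (Mk ∪ Mg)) := (hTm.union hM₀).union (hMk.union hMg)
  obtain ⟨z₁, hz₁⟩ := hL.good.nonempty hp.cov
  obtain ⟨e₁, b₁, F₁, β₁, γ₁, τ₁, hL₁⟩ := hL.chart z₁ hz₁
  have himg : F '' 𝒢 ∈ 𝓝 (F z₁) := by
    rw [← hL₁.map_nhds hp.cov]
    exact image_mem_map (hL.good.isOpen.mem_nhds hz₁)
  obtain ⟨t₀, ht₀, ht₀'⟩ := (dense_of_mem_residual hbad).inter_nhds_nonempty himg
  obtain ⟨z₀, hz₀, hFz₀⟩ := ht₀'
  have htT : t₀ ∉ T := fun h' => ht₀ (Or.inl (Or.inl h'))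
  have htM : t₀ ∉ M₀ := fun h' => ht₀ (Or.inl (Or.inr h'))
  have htk : t₀ ∉ Mk := fun h' => ht₀ (Or.inr (Or.inl h'))
  have htg : t₀ ∉ Mg := fun h' => ht₀ (Or.inr (Or.inr h'))
  obtain ⟨hconn, hregt⟩ := hT3 t₀ htT
  obtain ⟨u, hV, hVE⟩ := hTh.pot t₀ htM
  have hthin := hgf t₀ htg hregt
  have hcadd := hK.lat.add
  have hc1 : c 1 = 0 := by
    have := hcadd 1 1
    rw [mul_one] at this
    simpa using this
  have hcinv : ∀ g, c g⁻¹ = - c g := by
    intro g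
    have := hcadd g g⁻¹
    rw [mul_inv_cancel, hc1] at this
    exact (neg_eq_of_add_eq_zero_right this.symm).symm
  -- eventually the elements commute with every element of `K`
  have hcomm : ∀ κ ∈ K, ∃ j₀, ∀ i ≥ j₀, ∀ j ≥ j₀, h i j * κ = κ * h i j := by
    intro κ hκ
    by_contra hcon
    push Not at hcon
    choose i hi j hj hne' using hcon
    set hs : ℕ → Γ := fun l => h (i l) (j l) with hhs
    have hcκ : c κ = 0 := hK.sub κ hκ
    have hev : ∀ (P : ℕ → ℕ → Prop), (∃ j₀, ∀ i ≥ j₀, ∀ j ≥ j₀, P i j) →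
        ∀ᶠ l in atTop, P (i l) (j l) := by
      rintro P ⟨j₀, hj₀⟩
      filter_upwards [eventually_ge_atTop j₀] with l hl
      exact hj₀ _ (hl.trans (hi l)) _ (hl.trans (hj l))
    have hDK' := hDK n q X E Γ p hp w F c K ⟨B, hB⟩ hFe hK hfr t₀ hconn hregt W π Θ u hV hVE 𝒢
      hL.good.isOpen hL.inv hthin r (fun l => (π ((hs l)⁻¹ * (κ * hs l * κ⁻¹))).toLinearIsometry)
      (by
        intro z hz _
        obtain ⟨e', b', F', β', γ', τ', hL'⟩ := hL.chart z hz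
        obtain ⟨ρ₁, hρ₁, h1⟩ := hmain z hz e' b' F' β' γ' τ' hL' 1 hc1
        obtain ⟨ρ₂, hρ₂, h2⟩ := hmain z hz e' b' F' β' γ' τ' hL' κ hcκ
        refine slideAt_of hp.cov hL' hL.dim hL.Ninj (c := c) (h := hs)
          (h' := fun l => κ * hs l * κ⁻¹) (fun l => ?_) hρ₁ hρ₂ (fun ε hε => ?_) (fun ε hε => ?_)
        · rw [hcadd, hcadd, hcinv, hcκ]; simp
        · have := hev _ (h1 ε hε)
          filter_upwards [this] with l hl
          simpa using hl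
        · exact hev _ (h2 ε hε))
    obtain ⟨l, hl⟩ := hDK'.exists
    have h1 : (hs l)⁻¹ * (κ * hs l * κ⁻¹) ∈ K := by
      have h2 : (hs l)⁻¹ * κ * ((hs l)⁻¹)⁻¹ ∈ K := hK.normal.conj_mem κ hκ _
      rw [inv_inv] at h2
      have h3 := K.mul_mem h2 (K.inv_mem hκ)
      have h4 : (hs l)⁻¹ * (κ * hs l * κ⁻¹) = (hs l)⁻¹ * κ * hs l * κ⁻¹ := by group
      rwa [h4]
    have h2 := hker t₀ htk _ h1 hl
    apply hne' l
    have h3 : κ * hs l * κ⁻¹ = hs l := by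
      have := congrArg (fun x => hs l * x) h2
      simpa using this
    have h4 : κ * hs l = hs l * κ := by
      rw [← h3]
      conv_lhs => rw [h3]
      group
    exact h4.symm
  -- finitely many generators
  obtain ⟨j₀, hj₀⟩ : ∃ j₀, ∀ i ≥ j₀, ∀ j ≥ j₀, ∀ κ ∈ K, h i j * κ = κ * h i j := by
    obtain ⟨SK, hSK⟩ := hK.fg.out
    have h1 : ∀ κ : K, ∃ j₀, ∀ i ≥ j₀, ∀ j ≥ j₀, h i j * κ = κ * h i j := fun κ =>
      hcomm κ κ.2
    choose J hJ using h1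
    refine ⟨SK.sup J, fun i hi j hj => ?_⟩
    have h2 : ∀ κ : K, h i j * κ = κ * h i j := by
      intro κ
      have hκ : κ ∈ Subgroup.closure (SK : Set K) := by rw [hSK]; exact Subgroup.mem_top _
      refine Subgroup.closure_induction (p := fun (κ : K) _ => h i j * κ = κ * h i j)
        ?_ ?_ ?_ ?_ hκ
      · intro x hx
        exact hJ x i ((Finset.le_sup hx).trans hi) j ((Finset.le_sup hx).trans hj)
      · simp
      · intro x y _ _ h3 h4
        rw [Subgroup.coe_mul, ← mul_assoc, h3, mul_assoc, h4, mul_assoc]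
      · intro x _ h3
        rw [Subgroup.coe_inv]
        have : (x : Γ)⁻¹ * (h i j * x) * (x : Γ)⁻¹ = (x : Γ)⁻¹ * (x * h i j) * (x : Γ)⁻¹ := by
          rw [h3]
        simpa [mul_assoc] using this.symm
    intro κ hκ
    exact h2 ⟨κ, hκ⟩
  -- a pair of indices
  obtain ⟨e', b', F', β', γ', τ', hL'⟩ := hL.chart z₀ hz₀
  set x₀ := b' (e' (p z₀)) with hx₀
  obtain ⟨C, -⟩ := H212.exists_pc hL'.γan hL'.imm one_pos
  obtain ⟨ρ, hρ, h1⟩ := hmain z₀ hz₀ e' b' F' β' γ' τ' hL' 1 hc1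
  obtain ⟨j₁, hj₁⟩ := h1 C.r₁ C.r₁_pos
  set j := max j₀ j₁ with hj
  set i := j + 1 with hi
  have hij0 : j₀ ≤ i := by have := le_max_left j₀ j₁; omega
  have hij1 : j₁ ≤ i := by have := le_max_right j₀ j₁; omega
  have hcom := hj₀ i hij0 j (le_max_left _ _)
  obtain ⟨φ, hφ, hφd⟩ := hj₁ i hij1 j (le_max_right _ _)
  have hone : (1 : Γ) * ((g ∘ θ) (σ i) * ((g ∘ θ) (σ j))⁻¹) * 1⁻¹ = h i j := by
    simp [hh]
  rw [hone] at hφ
  have hπ : π (h i j) = 1 := hcen _ hcom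
  -- `U h` fixes `γ b₀`
  have hUγ : U (h i j) (γ' (β' x₀)) = γ' (β' x₀) := by
    choose ξ hξ using fun l : Fin (q + r) => hL'.bsurj (Pi.single l 1)
    have h2 : (Matrix.of fun i j => fderiv ℂ b' (e' (p z₀)) (ξ j) i) = 1 := by
      ext i' j'
      rw [Matrix.of_apply, hξ, Matrix.one_apply, Pi.single_apply]
    have h3 := hL'.v_eq.self_of_nhds ξ
    rw [h2, Matrix.det_one, one_pow, one_smul] at h3
    have h4 := hL.equi (h i j) z₀ e' hL'.mem ξ
    rw [hL.triv (h i j) hπ z₀ e' hL'.mem ξ, h3] at h4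
    exact h4.symm
  have hx₀b : β' x₀ ∈ ball (β' x₀) ρ := mem_ball_self hρ
  obtain ⟨⟨a, ha⟩, hτ⟩ := hφ.2 _ hx₀b
  rw [hUγ] at ha
  have hne0 : γ' (β' x₀) ≠ 0 := hL'.imm.1
  have ha0 : a ≠ 0 := by
    rintro rfl
    rw [zero_smul] at ha
    exact hne0 ha
  have hφb : φ (β' x₀) ∈ ball (β' x₀) C.r₁ := by
    rw [mem_ball, dist_eq_norm]
    exact hφd _ hx₀b
  have heq : β' x₀ = φ (β' x₀) := C.inj (mem_ball_self C.r₁_pos) hφb ha0 ha
  rw [← heq, sub_self, zero_sub] at hτ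
  have hcS : c (h i j) ∈ LinearMap.range (N : Cm k →ₗ[ℂ] Cm q) := by
    have := Submodule.neg_mem _ hτ
    rwa [neg_neg] at this
  have hhS : h i j ∈ S := (hS _).2 ⟨hcom, hcS⟩
  have hcentral := hK.central _ hcom
  have hcoset : (g (θ (σ j)) : Γ ⧸ S) = g (θ (σ i)) := by
    rw [QuotientGroup.eq]
    have h2 : g (θ (σ i)) = h i j * g (θ (σ j)) := by simp [hh]
    rw [h2, hcentral, inv_mul_cancel_left]
    exact hhS
  rw [hg, hg] at hcoset
  have h2 := hinf'.injective (Subtype.ext hcoset)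
  have h3 := hσ.injective (hθ.injective h2)
  omega

/-- **[C]**, without amenability. -/
theorem cStmtF : CStmtF := by
  have hstk := Vale.Agent.P284.H335.cstkStmt
  have hlf := lfStmtF
  intro n q r k s m X _ _ _ _ _ _ w hw E Γ _ _ _ _ p hp F c K hF hFe hK hfr hG hreg W H _ _ _ _
    _ _ π Θ M₀ hM₀ hTh hne hcen v U N 𝒢 hI
  have hL := hI.toLeafE
  obtain ⟨z₁, hz₁⟩ := hL.good.nonempty hp.cov
  obtain ⟨e, b, F0, β, γ, τ, hC⟩ := hL.chart z₁ hz₁
  obtain ⟨P, hP⟩ : ∃ P : Cm q →L[ℂ] Cm k, ∀ x, P (N x) = x := by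
    obtain ⟨g, hg⟩ := LinearMap.exists_leftInverse_of_injective (N : Cm k →ₗ[ℂ] Cm q)
      (LinearMap.ker_eq_bot.2 hL.Ninj)
    exact ⟨LinearMap.toContinuousLinearMap g, fun x => LinearMap.congr_fun hg x⟩
  have hcadd := hK.lat.add
  have hc1 : c 1 = 0 := by
    have := hcadd 1 1
    rw [mul_one] at this
    simpa using this
  have hcinv : ∀ g, c g⁻¹ = - c g := by
    intro g
    have := hcadd g g⁻¹
    rw [mul_inv_cancel, hc1] at this
    exact (neg_eq_of_add_eq_zero_right this.symm).symm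
  let D : LeafDat q s k H :=
    { b₀ := β (b (e (p z₁)))
      γ := γ
      t := τ
      N := fun _ => N
      γan := hC.γan
      imm := hC.imm
      tan := hC.τan
      Nan := analyticAt_const
      inj := hL.Ninj }
  let S : Subgroup Γ :=
    { carrier := {g | (∀ h ∈ K, g * h = h * g) ∧ c g ∈ LinearMap.range (N : Cm k →ₗ[ℂ] Cm q)}
      mul_mem' := by
        rintro g g' ⟨h1, h2⟩ ⟨h3, h4⟩
        refine ⟨fun h hh => ?_, ?_⟩
        · rw [mul_assoc, h3 h hh, ← mul_assoc, h1 h hh, mul_assoc]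
        · rw [hcadd]; exact Submodule.add_mem _ h2 h4
      one_mem' := ⟨fun h _ => by simp, by rw [hc1]; exact Submodule.zero_mem _⟩
      inv_mem' := by
        rintro g ⟨h1, h2⟩
        refine ⟨fun h hh => ?_, ?_⟩
        · have h3 := congrArg (fun x => g⁻¹ * x * g⁻¹) (h1 h hh)
          simpa [mul_assoc] using h3.symm
        · rw [hcinv]; exact Submodule.neg_mem _ h2 }
  obtain ⟨r₀, hr₀, hfin⟩ := hlf n q r k s m X w hw E Γ p hp F c K hF hFe hK hfr hG hreg W H π Θ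
    M₀ hM₀ hTh hne hcen v U N 𝒢 hL D (fun _ => rfl) S (fun g => Iff.rfl)
  have hpg : ∀ (g : Γ) (y : E), p (g • y) = p y := fun g y => ((hp.orb y (g • y)).2 ⟨g, rfl⟩).symm
  refine hstk n X w hw E Γ p hp q F c K hF hFe hK H (q + r) m ?_ hL.m_pos v hL.form s k hI.k_pos D
    z₁ ?_ S (fun g hg => hg.1) r₀ hr₀ ?_ hfin
  · have := hL.dim
    have := hI.k_pos
    omega
  · -- `LeafAt`
    have hbt : Tendsto (fun y => b (e (p y))) (𝓝 z₁) (𝓝 (b (e (p z₁)))) :=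
      hC.ban.continuousAt.tendsto.comp (map_ep hp.cov hC.mem).le
    have hdb := hC.ban.differentiableAt.hasFDerivAt
    have hd1 : HasFDerivAt (fun x => β (b x))
        (fderiv ℂ β (b (e (p z₁))) ∘L fderiv ℂ b (e (p z₁))) (e (p z₁)) :=
      hC.βan.differentiableAt.hasFDerivAt.comp _ hdb
    have hd2 : HasFDerivAt (fun x => tq (b x)) (tqc q r ∘L fderiv ℂ b (e (p z₁))) (e (p z₁)) :=
      (tqc q r).hasFDerivAt.comp _ hdb
    refine ⟨e, b, fun x => β (b x), fun x => tq (b x), hC.mem, hC.ban, hC.bsurj,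
      hC.βan.comp hC.ban, ?_, rfl, hC.t_eq, ((tqc q r).analyticAt _).comp hC.ban, hC.v_eq, ?_,
      ?_⟩
    · rw [hd1.fderiv]
      exact hC.βsurj.comp hC.bsurj
    · filter_upwards [hbt.eventually hC.leaf, hC.t_eq] with y h1 h2
      rw [h2]; exact h1
    · rintro _ ⟨x, rfl⟩
      obtain ⟨ζ, h1, h2⟩ := exists_dir hL.dim hP hC.βan hC.trans hC.τan hC.leaf x
      obtain ⟨ξ, hξ⟩ := hC.bsurj ζ
      refine ⟨ξ, ?_, ?_⟩
      · rw [hd1.fderiv, ContinuousLinearMap.comp_apply, hξ, h1]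
      · rw [hd2.fderiv, ContinuousLinearMap.comp_apply, hξ, tqc_apply, h2]
        rfl
  · -- the sheets are preserved
    rintro g ⟨hg1, hg2⟩ y x hx - ⟨e', β', h1, h2, h3, h4⟩
    have hπ : π g = 1 := hcen g hg1
    refine ⟨e', β', by rw [hpg]; exact h1, by rw [hpg]; exact h2, by rw [hpg]; exact h3, ?_⟩
    have hcont : Tendsto (fun y' : E => g⁻¹ • y') (𝓝 (g • y)) (𝓝 y) := by
      have := (hp.cont g⁻¹).tendsto (g • y)
      rwa [inv_smul_smul] at this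
    filter_upwards [hcont.eventually h4, hcont.eventually (at_ev hp.cov h1)] with y' h5 h6
    have hy' : g • g⁻¹ • y' = y' := smul_inv_smul g y'
    have hp' : p (g⁻¹ • y') = p y' := hpg _ _
    rw [hp'] at h5
    refine ⟨fun ξ => ?_, ?_⟩
    · obtain ⟨a, ha⟩ := h5.1 ξ
      refine ⟨a, ?_⟩
      rw [← ha, ← hL.triv g hπ _ e' h6 ξ, hy']
    · have h7 : F y' = F (g⁻¹ • y') + c g := by rw [← hFe, hy']
      have h8 : F y' - D.t (β' (e' (p y'))) =
          (F (g⁻¹ • y') - D.t (β' (e' (p y')))) + c g := by rw [h7]; abel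
      rw [h8]
      exact Submodule.add_mem _ h5.2 hg2

end Vale.Agent.P284.H378.F
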