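import Vale.Agent.P284.H378.CS
import Vale.Agent.P284.H573.DK.FinRep

/-!
# P284 (helper378), theorem T3: statements of LF, [C], D_K for groups `K` whose finite dimensional real
representations have finite range (in place of the amenability of `Γ`)
-/

open scoped Manifold ContDiff Topology InnerProductSpace ComplexConjugate
open Filter Set Metric

noncomputable section

namespace Vale.Agent.P284.H378.F

open Vale.Agent.P272.K Vale.Agent.P284.H894 Vale.Agent.P284.H894.G Vale.Agent.P284.H894.V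
  Vale.Agent.P284.H894.W Vale.Agent.P284.H573 Vale.Agent.P284.H213.Grp Vale.Agent.P284.H395
  Vale.Agent.P284.H619 Vale.Agent.P284.H625 Vale.Agent.P284.H378 Vale.Agent.P284.H573.DK

/-- **D_K**, without amenability. -/
def DK2StmtF : Prop :=
  ∀ (n q : ℕ) (X : Type) [TopologicalSpace X] [T2Space X] [CompactSpace X]
    [ChartedSpace (Cm n) X] [IsManifold 𝓘(ℂ, Cm n) ω X] (E Γ : Type) [TopologicalSpace E]
    [Group Γ] [MulAction Γ E] (p : E → X), IsGalois Γ p →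
    ∀ (w : Chart n X → Cm n → Matrix (Fin n) (Fin n) ℂ) (F : E → Cm q) (c : Γ → Cm q)
      (K : Subgroup Γ), (∃ B, HolB p w F B) →
      (∀ g y, F (g • y) = F y + c g) → NPkg Γ q c K → FinRep K →
    ∀ t : Cm q, IsConnected (F ⁻¹' {t}) → (∀ y, F y = t → Reg (n := n) p F y) →
    ∀ (W : Type) [NormedAddCommGroup W] [InnerProductSpace ℂ W] [CompleteSpace W]
      (π : Γ →* (W ≃ₗᵢ[ℂ] W)) (Θ : E → Chart n X → (Cm n →L[ℂ] W)) (u : E → W),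
      VPot p F t W Θ u → VEqui p F t K π Θ u →
    ∀ 𝒢 : Set E, IsOpen 𝒢 → (∀ (g : Γ), ∀ y ∈ 𝒢, g • y ∈ 𝒢) →
      (∀ (y : E) (e : Chart n X), F y = t → At e (p y) → ∃ h : Cm n → ℂ,
        AnalyticAt ℂ h (e (p y)) ∧ (∃ᶠ y' in 𝓝 y, F y' = t ∧ h (e (p y')) ≠ 0) ∧
        ∀ᶠ y' in 𝓝 y, h (e (p y')) ≠ 0 → y' ∈ 𝒢) →
    ∀ (r : ℕ) (U : ℕ → (W →ₗᵢ[ℂ] W)), (∀ z ∈ 𝒢, F z = t → SlideAt n p F Θ r U z) →
    ∀ᶠ j in atTop, ∀ y e, F y = t → At e (p y) → ∀ ξ ∈ VS p F y e, U j (Θ y e ξ) = Θ y e ξ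

/-- **H3**, without amenability. -/
def KerStmtF : Prop :=
  ∀ (n q : ℕ) (X : Type) [TopologicalSpace X] [T2Space X] [CompactSpace X]
    [ChartedSpace (Cm n) X] [IsManifold 𝓘(ℂ, Cm n) ω X] (E Γ : Type) [TopologicalSpace E]
    [ConnectedSpace E] [Group Γ] [MulAction Γ E] (p : E → X), IsGalois Γ p →
    ∀ (w : Chart n X → Cm n → Matrix (Fin n) (Fin n) ℂ) (F : E → Cm q) (c : Γ → Cm q)
      (K : Subgroup Γ), (∃ B, HolB p w F B) →
      (∀ g y, F (g • y) = F y + c g) → NPkg Γ q c K → GenConn (n := n) p F →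
    ∀ (W : Type) [NormedAddCommGroup W] [InnerProductSpace ℂ W] [CompleteSpace W]
      (π : Γ →* (W ≃ₗᵢ[ℂ] W)) (Θ : E → Chart n X → (Cm n →L[ℂ] W)) (M₀ : Set (Cm q)),
      IsMeagre M₀ → ThE p F K π Θ M₀ →
      (∃ y e, Reg (n := n) p F y ∧ At e (p y) ∧ ∃ ξ ∈ VS p F y e, Θ y e ξ ≠ 0) →
    ∃ M : Set (Cm q), IsMeagre M ∧ ∀ t ∉ M, ∀ g ∈ K, (∀ y e, F y = t → At e (p y) →
      ∀ ξ ∈ VS p F y e, π g (Θ y e ξ) = Θ y e ξ) → g = 1

/-- **LF**, without amenability. -/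
def LFStmtF : Prop :=
  ∀ (n q r k s m : ℕ) (X : Type) [TopologicalSpace X] [T2Space X] [CompactSpace X]
    [ConnectedSpace X] [ChartedSpace (Cm n) X] [IsManifold 𝓘(ℂ, Cm n) ω X]
    (w : Chart n X → Cm n → Matrix (Fin n) (Fin n) ℂ), IsKahler w → ∀ (E Γ : Type)
    [TopologicalSpace E] [ConnectedSpace E] [Group Γ] [MulAction Γ E] (p : E → X), IsGalois Γ p →
    ∀ (F : E → Cm q) (c : Γ → Cm q) (K : Subgroup Γ), (∃ B, HolB p w F B) →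
      (∀ g y, F (g • y) = F y + c g) → NPkg Γ q c K → FinRep K → GenConn (n := n) p F →
      (∃ y, Reg (n := n) p F y) →
    ∀ (W H : Type) [NormedAddCommGroup W] [InnerProductSpace ℂ W] [CompleteSpace W]
      [NormedAddCommGroup H] [InnerProductSpace ℂ H] [CompleteSpace H]
      (π : Γ →* (W ≃ₗᵢ[ℂ] W)) (Θ : E → Chart n X → (Cm n →L[ℂ] W)) (M₀ : Set (Cm q)),
      IsMeagre M₀ → ThE p F K π Θ M₀ →
      (∃ y e, Reg (n := n) p F y ∧ At e (p y) ∧ ∃ ξ ∈ VS p F y e, Θ y e ξ ≠ 0) →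
      (∀ g, (∀ k ∈ K, g * k = k * g) → π g = 1) →
    ∀ (v : E → Chart n X → (Fin (q + r) → Cm n) → H) (U : Γ → (H →ₗᵢ[ℂ] H))
      (N : Cm k →L[ℂ] Cm q) (𝒢 : Set E), LeafE s p F m v U π Θ N 𝒢 →
    ∀ (D : LeafDat q s k H), (∀ x, D.N x = N) → ∀ S : Subgroup Γ, IsSub c K N S →
    ∃ r₀ > 0, ∀ K₀ : Set E, IsCompact K₀ → (∀ y ∈ K₀, NZ p v y) →
      {a : Γ ⧸ S | ∃ g : Γ, (g : Γ ⧸ S) = a ∧ ∃ y ∈ K₀, ∃ b ∈ ball D.b₀ r₀,
        Sh p v F D (g⁻¹ • y) b}.Finite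

/-- **[C]**, without amenability. -/
def CStmtF : Prop :=
  ∀ (n q r k s m : ℕ) (X : Type) [TopologicalSpace X] [T2Space X] [CompactSpace X]
    [ConnectedSpace X] [ChartedSpace (Cm n) X] [IsManifold 𝓘(ℂ, Cm n) ω X]
    (w : Chart n X → Cm n → Matrix (Fin n) (Fin n) ℂ), IsKahler w → ∀ (E Γ : Type)
    [TopologicalSpace E] [ConnectedSpace E] [Group Γ] [MulAction Γ E] (p : E → X), IsGalois Γ p →
    ∀ (F : E → Cm q) (c : Γ → Cm q) (K : Subgroup Γ), (∃ B, HolB p w F B) →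
      (∀ g y, F (g • y) = F y + c g) → NPkg Γ q c K → FinRep K → GenConn (n := n) p F →
      (∃ y, Reg (n := n) p F y) →
    ∀ (W H : Type) [NormedAddCommGroup W] [InnerProductSpace ℂ W] [CompleteSpace W]
      [NormedAddCommGroup H] [InnerProductSpace ℂ H] [CompleteSpace H]
      (π : Γ →* (W ≃ₗᵢ[ℂ] W)) (Θ : E → Chart n X → (Cm n →L[ℂ] W)) (M₀ : Set (Cm q)),
      IsMeagre M₀ → ThE p F K π Θ M₀ →
      (∃ y e, Reg (n := n) p F y ∧ At e (p y) ∧ ∃ ξ ∈ VS p F y e, Θ y e ξ ≠ 0) →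
      (∀ g, (∀ k ∈ K, g * k = k * g) → π g = 1) →
    ∀ (v : E → Chart n X → (Fin (q + r) → Cm n) → H) (U : Γ → (H →ₗᵢ[ℂ] H))
      (N : Cm k →L[ℂ] Cm q) (𝒢 : Set E), IsoE s p F m v U π Θ N 𝒢 → False

end Vale.Agent.P284.H378.F
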